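import Vale.Agent.P281.H413.KD.FC

/-! P281, theorem KGL: `∫ A ^ (n - 1) ∧ Λ ≥ 0` for a closed semipositive form `A` and the curvature
`Λ` of a line bundle which has a singular metric `- (1/m) log ρ` with semipositive curvature. -/

open scoped Manifold ContDiff ComplexOrder Topology
open Complex Set Filter MeasureTheory

set_option linter.all false

noncomputable section

namespace Vale.Agent.P281.H776.KL

open Vale.Agent.P272.K Vale.Agent.P272.K.AMP Vale.Agent.P299.D Vale.Agent.P299 Vale.Agent.P299.H882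
open Vale.Agent.P281.H167.SA Vale.Agent.P281.H167.GM Vale.Agent.P281.H413.FC
open INT (IsDensity intX IsClosedForm)

variable {n : ℕ} {X : Type} [TopologicalSpace X] [ChartedSpace (Cm n) X]
  [IsManifold 𝓘(ℂ, Cm n) ω X]

lemma addF_zero (A B : D.FormM n X) : addF A 0 B = A := by
  funext e z
  simp [addF]

lemma addH_zero (A : D.FormM n X) : addH A (fun _ => 0) = A := by
  funext e z
  have h := hess_const' (n := n) (X := X) 0 e z
  have h' : cHess (fun y : Cm n => (fun _ : X => (0 : ℝ)) (e.symm y)) z = 0 := h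
  simp only [addH]
  rw [h', add_zero]

/-- **mix_nonneg** -/
theorem mix_nonneg [T2Space X] [CompactSpace X] [Nonempty X] {χ Λ A : D.FormM n X}
    (hχ : IsKahler χ) (hΛ : IsClosedForm Λ) (m : ℕ) {ρ : X → ℝ} (hρ : SmoothFn (n := n) ρ)
    (h0 : ∀ x, 0 ≤ ρ x)
    (hnull : ∀ e ∈ atlas (Cm n) X, volume {z | z ∈ e.target ∧ ρ (e.symm z) = 0} = 0)
    (C : ℝ) (hC : ∀ δ : ℝ, 0 < δ → ∀ e x, At e x → (Λ e (e x) + (((m : ℝ)⁻¹ : ℝ) : ℂ) •
      hess (fun y => Real.log (ρ y + δ)) e (e x) +
      ((C * (δ / (ρ x + δ)) : ℝ) : ℂ) • χ e (e x)).PosSemidef)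
    (hA : IsClosedForm A) (hA0 : ∀ e x, At e x → (A e (e x)).PosSemidef) :
    0 ≤ mixX A Λ := by
  have hχ0 : ∀ e x, At e x → (χ e (e x)).PosSemidef := fun e x hx => (hχ.posDef e x hx).posSemidef
  have hχH := hχ.toIsHermitian
  have hχc : IsClosedForm χ := INT.IsKahler.isClosedForm hχ
  set Cp := max C 0 with hCpdef
  have cρ := sm_continuous hρ
  -- `ε > 0`
  have step1 : ∀ ε : ℝ, 0 < ε → 0 ≤ mixX (addF A ε χ) Λ := by
    intro ε hε
    have hG : IsKahler (addF A ε χ) := by
      have := isKahler_G hχ hA hA hA0 hA0 le_rfl hε (s := 0)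
      rwa [addF_zero] at this
    set G : D.FormM n X := addF A ε χ with hGdef
    have hGH := hG.toIsHermitian
    have ctrχ : Continuous (trX G χ) := sm_continuous (smoothFn_trX hGH hχH.isForm hχH.smooth)
    have key : ∀ δ : ℝ, 0 < δ → 0 ≤ mixX G Λ +
        Cp * J G (fun x => δ / (ρ x + δ) * trX G χ x) := by
      intro δ hδ
      have hlR := smooth_lR hρ h0 m hδ
      have hcl := closed_addH hΛ hlR
      have c1 : Continuous (trX G (addH Λ (lR m ρ δ))) :=
        sm_continuous (smoothFn_trX hGH hcl.form hcl.smooth)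
      have cη : Continuous fun x => δ / (ρ x + δ) :=
        continuous_const.div (cρ.add continuous_const) fun x => by
          have := h0 x
          have h : 0 < ρ x + δ := by linarith
          exact h.ne'
      have c2 : Continuous fun x => Cp * (δ / (ρ x + δ) * trX G χ x) :=
        continuous_const.mul (cη.mul ctrχ)
      have hΘf : IsForm (thF Λ m ρ Cp δ χ) := isForm_thF hΛ hρ h0 Cp hδ hχH.isForm
      have hcoh := Vale.Agent.P281.H227.GMC.cohPart n X G Λ (INT.IsKahler.isClosedForm hG) hΛ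
        (fun _ => 0) _ (smoothFn_const 0) hlR
      rw [addH_zero] at hcoh
      have e1 : J G (trX G (thF Λ m ρ Cp δ χ)) =
          mixX G Λ + Cp * J G (fun x => δ / (ρ x + δ) * trX G χ x) := by
        rw [J_congr (fun x => trX_thF hGH hΛ hρ h0 Cp hδ hχH.isForm x), J_add hGH c1 c2,
          J_const_mul, J_trX hGH hcl.form, hcoh]
      rw [← e1]
      refine J_nonneg hGH fun x => ?_
      have hx := at_chartAt (n := n) x
      rw [trX_eq hGH hΘf hx]
      exact (Complex.le_def.1 (C2.trace_mul_nonneg (hG.posDef _ x hx).inv.posSemidef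
        (thF_psd hρ h0 hχ0 (le_max_left _ _) hC hδ hx))).1
    have hlim := ((Vale.Agent.P281.H227.SB.tendsto_mass hGH cρ h0 hnull ctrχ).const_mul
      Cp).const_add (mixX G Λ)
    rw [mul_zero, add_zero] at hlim
    refine ge_of_tendsto hlim ?_
    filter_upwards [self_mem_nhdsWithin] with δ hδ using key δ hδ
  -- `ε → 0`
  refine ge_of_tendsto (Vale.Agent.P281.H227.GMC.epsPart n X A Λ χ hA hΛ hχc) ?_
  filter_upwards [self_mem_nhdsWithin] with ε hε using step1 ε hε

end Vale.Agent.P281.H776.KL
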