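import Vale.Agent.P281.H713.KD.Iface
import Vale.Agent.P281.H167.GM.Tools

/-! P281, theorem KGL: the Bochner inequality `|∂S|² ≤ S ΔS + τ S²` for `S exp h`. -/

open scoped Manifold ContDiff Topology ComplexOrder
open Set Filter Vale.Agent.P281.J Vale.Agent.P272.K Vale.Agent.P272.K.AMP Vale.Agent.P299
open Vale.Agent.P299.H882
open Vale.Agent.P272.K.INT (intX IsClosedForm)

set_option linter.all false

noncomputable section

namespace Vale.Agent.P281.H776.KL

open Vale.Agent.P281.H713.KD

variable {n : ℕ} {X : Type} [TopologicalSpace X] [ChartedSpace (Cm n) X]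
  [IsManifold 𝓘(ℂ, Cm n) ω X]

lemma smooth_exp {h : X → ℝ} (hh : SmoothFn (n := n) h) :
    SmoothFn (n := n) (fun x => Real.exp (h x)) := fun e x hx => (hh e x hx).exp

/-- **the Bochner inequality for `S exp h`** -/
theorem bochF_mul_exp {g : D.FormM n X} (hg : IsHermitian g) {S h τ : X → ℝ}
    (hS : SmoothFn (n := n) S) (hh : SmoothFn (n := n) h) (hB : BochF g τ S) :
    BochF g (fun x => τ x - lapX g h x) (fun x => S x * Real.exp (h x)) := by
  intro x
  have hg' := hg.posDef
  have hE : SmoothFn (n := n) (fun x => Real.exp (h x)) := smooth_exp hh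
  have hSE : SmoothFn (n := n) (fun x => S x * Real.exp (h x)) := fun e x hx =>
    (hS e x hx).mul (hE e x hx)
  have d1 : ∀ w : X → ℝ, gradX g (fun x => Real.exp (h x)) w x =
      Real.exp (h x) * gradX g h w x := by
    intro w
    have := gradX_comp_left (g := g) (w := w) (x := x) (φ := Real.exp)
      Real.differentiableAt_exp hh
    rwa [Real.deriv_exp] at this
  have d2 : gradX g S (fun x => Real.exp (h x)) x = Real.exp (h x) * gradX g S h x := by
    rw [gradX_comm hg', d1, gradX_comm hg']
  have d3 : gradX g (fun x => Real.exp (h x)) (fun x => Real.exp (h x)) x =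
      Real.exp (h x) * (Real.exp (h x) * gradX g h h x) := by
    rw [d1, gradX_comm hg', d1]
  have l1 : lapX g (fun x => Real.exp (h x)) x =
      Real.exp (h x) * lapX g h x + Real.exp (h x) * gradX g h h x := by
    have := lapX_comp' (g := g) (x := x) (φ := Real.exp) Real.contDiff_exp.contDiffAt hh
    rwa [Real.deriv_exp, Real.deriv_exp] at this
  have e1 : gradX g (fun x => S x * Real.exp (h x)) (fun x => S x * Real.exp (h x)) x =
      Real.exp (h x) ^ 2 * (gradX g S S x + 2 * S x * gradX g S h x +
        S x ^ 2 * gradX g h h x) := by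
    rw [gradX_mul_left hS hE, gradX_mul_right hS hE, gradX_mul_right hS hE, d2, d3, d1 S,
      gradX_comm hg' h S]
    ring
  have e2 : lapX g (fun x => S x * Real.exp (h x)) x = Real.exp (h x) *
      (S x * lapX g h x + S x * gradX g h h x + lapX g S x + 2 * gradX g S h x) := by
    rw [lapX_mul hg' hS hE, l1, d2]
    ring
  have hBx := hB x
  rw [e1, e2]
  have h2 : 0 ≤ Real.exp (h x) ^ 2 := by positivity
  have h3 := mul_le_mul_of_nonneg_left hBx h2
  have h4 : S x * Real.exp (h x) * (Real.exp (h x) *
      (S x * lapX g h x + S x * gradX g h h x + lapX g S x + 2 * gradX g S h x)) +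
      (τ x - lapX g h x) * (S x * Real.exp (h x)) ^ 2 =
      Real.exp (h x) ^ 2 * (S x * lapX g S x + τ x * S x ^ 2) +
        Real.exp (h x) ^ 2 * (2 * S x * gradX g S h x + S x ^ 2 * gradX g h h x) := by ring
  rw [h4]
  linarith

lemma bochF_mono {g : D.FormM n X} {τ τ' S : X → ℝ} (h : BochF g τ S) (hle : ∀ x, τ x ≤ τ' x) :
    BochF g τ' S := fun x => (h x).trans (by
  have := mul_le_mul_of_nonneg_right (hle x) (sq_nonneg (S x))
  linarith)

end Vale.Agent.P281.H776.KL
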